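import Vale.Agent.P104.Continuous.Step

/-!
P085: blocks of partial isometries refining a projection, as produced by the averaging step.
-/

namespace VP085.Bridge

open Vale.Agent.P104 Vale.Agent.P104.Continuous

universe u

variable {H : Type u} [NormedAddCommGroup H] [InnerProductSpace ℂ H] [CompleteSpace H]

/-- The partial isometries `R a` cut `p` into orthogonal pieces equivalent to `p'`. -/
structure Block (M : VonNeumannAlgebra H) (p p' : H →L[ℂ] H) {n : ℕ}
    (R : Fin n → (H →L[ℂ] H)) : Prop where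
  mem : ∀ a, R a ∈ M
  left : ∀ a, p' * R a = R a
  right : ∀ a, R a * p = R a
  orth : ∀ a b, R a * star (R b) = if a = b then p' else 0
  sum : ∑ a, star (R a) * R a = p
  proj : IsStarProjection p'
  memP : p' ∈ M

/-- `y` lives in the corner of `p`. -/
def InCorner (p y : H →L[ℂ] H) : Prop := p * y = y ∧ y * p = y

/-- Copying an element of the small corner to all pieces. -/
noncomputable def comb {n : ℕ} (R : Fin n → (H →L[ℂ] H)) (y : H →L[ℂ] H) : H →L[ℂ] H :=
  ∑ a, star (R a) * y * R a

/-- The average of the pieces, in the small corner. -/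
noncomputable def down {n : ℕ} (R : Fin n → (H →L[ℂ] H)) (X : H →L[ℂ] H) : H →L[ℂ] H :=
  (n : ℂ)⁻¹ • ∑ a, R a * X * star (R a)

lemma down_sub {n : ℕ} (R : Fin n → (H →L[ℂ] H)) (X Y : H →L[ℂ] H) :
    down R (X - Y) = down R X - down R Y := by
  simp only [down, mul_sub, sub_mul, Finset.sum_sub_distrib, smul_sub]

lemma down_smul {n : ℕ} (R : Fin n → (H →L[ℂ] H)) (c : ℂ) (X : H →L[ℂ] H) :
    down R (c • X) = c • down R X := by
  simp only [down, mul_smul_comm, smul_mul_assoc, ← Finset.smul_sum, smul_comm c]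

lemma down_sa {n : ℕ} (R : Fin n → (H →L[ℂ] H)) {X : H →L[ℂ] H} (hX : IsSelfAdjoint X) :
    IsSelfAdjoint (down R X) := by
  rw [IsSelfAdjoint, down, star_smul, Complex.star_def, map_inv₀, Complex.conj_natCast, star_sum]
  simp only [star_mul, star_star, hX.star_eq, mul_assoc]

namespace Block

variable {M : VonNeumannAlgebra H} {p p' : H →L[ℂ] H} {n : ℕ} {R : Fin n → (H →L[ℂ] H)}

lemma star_left (hB : Block M p p' R) (a : Fin n) : star (R a) * p' = star (R a) := by
  simpa [hB.proj.isSelfAdjoint.star_eq] using congrArg star (hB.left a)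

lemma star_right (hB : Block M p p' R) (hp : IsStarProjection p) (a : Fin n) :
    p * star (R a) = star (R a) := by
  simpa [hp.isSelfAdjoint.star_eq] using congrArg star (hB.right a)

lemma norm_le (hB : Block M p p' R) (a : Fin n) : ‖R a‖ ≤ 1 := by
  have h := CStarRing.norm_self_mul_star (x := R a)
  rw [hB.orth, if_pos rfl] at h
  nlinarith [hB.proj.norm_le, norm_nonneg (R a)]

lemma down_mem (hB : Block M p p' R) {X : H →L[ℂ] H} (hX : X ∈ M) : down R X ∈ M :=
  smul_mem_vn _ (sum_mem fun a _ => mul_mem (mul_mem (hB.mem a) hX) (star_mem (hB.mem a)))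

lemma left_down (hB : Block M p p' R) (X : H →L[ℂ] H) : p' * down R X = down R X := by
  simp only [down, mul_smul_comm, Finset.mul_sum, ← mul_assoc, hB.left]

lemma down_p (hB : Block M p p' R) (hn : 0 < n) : down R p = p' := by
  have e : ∀ a, R a * p * star (R a) = p' := fun a => by rw [hB.right, hB.orth, if_pos rfl]
  simp only [down, e, Finset.sum_const, Finset.card_univ, Fintype.card_fin,
    ← Nat.cast_smul_eq_nsmul ℂ, smul_smul]
  rw [inv_mul_cancel₀ (Nat.cast_ne_zero.2 hn.ne'), one_smul]

lemma norm_down_le (hB : Block M p p' R) (X : H →L[ℂ] H) : ‖down R X‖ ≤ ‖X‖ := by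
  rcases Nat.eq_zero_or_pos n with rfl | hn
  · simp [down]
  rw [down, norm_smul, norm_inv, Complex.norm_natCast, inv_mul_le_iff₀ (by exact_mod_cast hn)]
  refine (norm_sum_le _ _).trans ?_
  calc _ ≤ ∑ _a : Fin n, ‖X‖ := Finset.sum_le_sum fun a _ => by
        refine (norm_mul_le _ _).trans ?_
        rw [norm_star]
        refine (mul_le_of_le_one_right (norm_nonneg _) (hB.norm_le a)).trans ?_
        exact (norm_mul_le _ _).trans (mul_le_of_le_one_left (norm_nonneg _) (hB.norm_le a))
    _ = _ := by simp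

lemma comb_mem (hB : Block M p p' R) {y : H →L[ℂ] H} (hy : y ∈ M) : comb R y ∈ M :=
  sum_mem fun a _ => mul_mem (mul_mem (star_mem (hB.mem a)) hy) (hB.mem a)

lemma comb_corner (hB : Block M p p' R) (hp : IsStarProjection p) (y : H →L[ℂ] H) :
    InCorner p (comb R y) := by
  constructor
  · simp only [comb, Finset.mul_sum, ← mul_assoc, hB.star_right hp]
  · simp only [comb, Finset.sum_mul, mul_assoc, hB.right]

lemma comb_one (hB : Block M p p' R) : comb R p' = p := by
  simp only [comb, hB.star_left, hB.sum]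

lemma comb_mul (hB : Block M p p' R) {x y : H →L[ℂ] H} (hx : x * p' = x) :
    comb R x * comb R y = comb R (x * y) := by
  simp only [comb, Finset.sum_mul_sum]
  refine Finset.sum_congr rfl fun a _ => ?_
  rw [Finset.sum_eq_single a]
  · calc star (R a) * x * R a * (star (R a) * y * R a) =
          star (R a) * (x * (R a * star (R a))) * (y * R a) := by simp only [mul_assoc]
      _ = _ := by rw [hB.orth, if_pos rfl, hx]; simp only [mul_assoc]
  · intro b _ hb
    calc star (R a) * x * R a * (star (R b) * y * R b) =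
          star (R a) * x * (R a * star (R b)) * (y * R b) := by simp only [mul_assoc]
      _ = 0 := by rw [hB.orth, if_neg (Ne.symm hb)]; simp
  · simp

lemma comb_unit (hB : Block M p p' R) {y : H →L[ℂ] H} (hy : InCorner p' y) (a b : Fin n) :
    comb R y * (star (R a) * R b) = star (R a) * R b * comb R y := by
  have e1 : comb R y * (star (R a) * R b) = star (R a) * y * R b := by
    rw [comb, Finset.sum_mul, Finset.sum_eq_single a]
    · calc star (R a) * y * R a * (star (R a) * R b) =
            star (R a) * y * (R a * star (R a)) * R b := by simp only [mul_assoc]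
        _ = _ := by rw [hB.orth, if_pos rfl, mul_assoc _ y, hy.2]
    · intro c _ hc
      calc star (R c) * y * R c * (star (R a) * R b) =
            star (R c) * y * (R c * star (R a)) * R b := by simp only [mul_assoc]
        _ = 0 := by rw [hB.orth, if_neg hc]; simp
    · simp
  have e2 : star (R a) * R b * comb R y = star (R a) * y * R b := by
    rw [comb, Finset.mul_sum, Finset.sum_eq_single b]
    · calc star (R a) * R b * (star (R b) * y * R b) =
            star (R a) * (R b * star (R b) * y) * R b := by simp only [mul_assoc]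
        _ = _ := by rw [hB.orth, if_pos rfl, hy.1]
    · intro c _ hc
      calc star (R a) * R b * (star (R c) * y * R c) =
            star (R a) * (R b * star (R c)) * (y * R c) := by simp only [mul_assoc]
        _ = 0 := by rw [hB.orth, if_neg (Ne.symm hc)]; simp
    · simp
  rw [e1, e2]

lemma unit_mul (hB : Block M p p' R) (a b c d : Fin n) :
    star (R a) * R b * (star (R c) * R d) = if b = c then star (R a) * R d else 0 := by
  calc star (R a) * R b * (star (R c) * R d) = star (R a) * (R b * star (R c)) * R d := by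
        simp only [mul_assoc]
    _ = _ := by
        rw [hB.orth]
        split_ifs with h
        · rw [hB.star_left]
        · simp

lemma unit_corner (hB : Block M p p' R) (hp : IsStarProjection p) (a b : Fin n) :
    InCorner p (star (R a) * R b) :=
  ⟨by rw [← mul_assoc, hB.star_right hp], by rw [mul_assoc, hB.right]⟩

lemma comb_twirl (hB : Block M p p' R) (X : H →L[ℂ] H) :
    (n : ℂ)⁻¹ • ∑ a, ∑ b, star (R a) * R b * X * (star (R b) * R a) = comb R (down R X) := by
  simp only [comb, down, mul_smul_comm, smul_mul_assoc, ← Finset.smul_sum, Finset.mul_sum,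
    Finset.sum_mul, mul_assoc]

lemma norm_comb_le (hB : Block M p p' R) (hp : IsStarProjection p) {y : H →L[ℂ] H}
    (hy : IsSelfAdjoint y) : ‖comb R y‖ ≤ ‖y‖ := by
  set r := ‖y‖
  have hr : (0 : ℝ) ≤ r := norm_nonneg y
  have hRm : comb R (algebraMap ℝ (H →L[ℂ] H) r) = r • p := by
    rw [comb, ← hB.sum, Finset.smul_sum, Algebra.algebraMap_eq_smul_one]
    simp only [mul_smul_comm, smul_mul_assoc, mul_one]
  have hp1 : r • p ≤ algebraMap ℝ (H →L[ℂ] H) r := by
    rw [Algebra.algebraMap_eq_smul_one, ← sub_nonneg, ← smul_sub]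
    exact smul_nonneg hr (sub_nonneg.2 hp.le_one)
  have mono : ∀ u v : H →L[ℂ] H, u ≤ v → comb R u ≤ comb R v := fun u v h =>
    Finset.sum_le_sum fun a _ => star_left_conjugate_le_conjugate h (R a)
  refine norm_le_of_mem_Icc (isSelfAdjoint_sum _ fun a _ => hy.conjugate' (R a)) hr
    ((mono _ _ (IsSelfAdjoint.le_algebraMap_norm_self hy)).trans (hRm.le.trans hp1)) ?_
  refine (neg_le_neg hp1).trans ?_
  have h := mono _ _ (IsSelfAdjoint.neg_algebraMap_norm_le_self hy)
  have e : comb R (-(algebraMap ℝ (H →L[ℂ] H) r)) = -(r • p) := by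
    rw [← hRm]
    simp only [comb, mul_neg, neg_mul, Finset.sum_neg_distrib]
  rwa [e] at h

end Block

/-- Two blocks in a row. -/
noncomputable def compR {n m : ℕ} (R : Fin n → (H →L[ℂ] H)) (R' : Fin m → (H →L[ℂ] H))
    (i : Fin (n * m)) : H →L[ℂ] H :=
  R' (finProdFinEquiv.symm i).2 * R (finProdFinEquiv.symm i).1

lemma down_compR {n m : ℕ} (R : Fin n → (H →L[ℂ] H)) (R' : Fin m → (H →L[ℂ] H))
    (X : H →L[ℂ] H) : down (compR R R') X = down R' (down R X) := by
  have hs : ∀ F : Fin n × Fin m → (H →L[ℂ] H),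
      ∑ i, F (finProdFinEquiv.symm i) = ∑ b, ∑ a, F (a, b) := fun F => by
    rw [finProdFinEquiv.symm.sum_comp, Fintype.sum_prod_type, Finset.sum_comm]
  simp only [down, compR]
  rw [hs (fun q => R' q.2 * R q.1 * X * star (R' q.2 * R q.1))]
  simp only [star_mul, mul_smul_comm, smul_mul_assoc, ← Finset.smul_sum, Finset.mul_sum,
    Finset.sum_mul, mul_assoc, smul_smul]
  congr 1
  push_cast
  rw [mul_inv, mul_comm]

lemma Block.comp {M : VonNeumannAlgebra H} {p p' p'' : H →L[ℂ] H} {n m : ℕ}
    {R : Fin n → (H →L[ℂ] H)} {R' : Fin m → (H →L[ℂ] H)} (h : Block M p p' R)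
    (h' : Block M p' p'' R') : Block M p p'' (compR R R') where
  mem i := mul_mem (h'.mem _) (h.mem _)
  left i := by rw [compR, ← mul_assoc, h'.left]
  right i := by rw [compR, mul_assoc, h.right]
  orth i j := by
    obtain ⟨a, ha⟩ := finProdFinEquiv.surjective i
    obtain ⟨b, hb⟩ := finProdFinEquiv.surjective j
    subst ha hb
    simp only [compR, Equiv.symm_apply_apply, star_mul, finProdFinEquiv.injective.eq_iff]
    calc R' a.2 * R a.1 * (star (R b.1) * star (R' b.2))
        = R' a.2 * (R a.1 * star (R b.1)) * star (R' b.2) := by simp only [mul_assoc]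
      _ = _ := by
          rw [h.orth]
          by_cases h1 : a.1 = b.1
          · rw [if_pos h1, h'.right, h'.orth]
            simp [Prod.ext_iff, h1]
          · rw [if_neg h1]
            simp [Prod.ext_iff, h1]
  sum := by
    simp only [compR]
    rw [finProdFinEquiv.symm.sum_comp (fun q => star (R' q.2 * R q.1) * (R' q.2 * R q.1)),
      Fintype.sum_prod_type]
    conv_rhs => rw [← h.sum]
    refine Finset.sum_congr rfl fun a _ => ?_
    calc ∑ b, star (R' b * R a) * (R' b * R a)
        = star (R a) * (∑ b, star (R' b) * R' b) * R a := by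
          simp only [star_mul, Finset.mul_sum, Finset.sum_mul, mul_assoc]
      _ = _ := by rw [h'.sum, h.star_left]
  proj := h'.proj
  memP := h'.memP

/-- One step: a block of two pieces moving `d` towards the scalars. -/
lemma exists_block2 {M : VonNeumannAlgebra H} (hc : ContinuousPart M 1)
    (hs : ∀ c, InCentre M c → IsSelfAdjoint c → ∃ r : ℝ, c = (r : ℂ) • 1)
    {p d : H →L[ℂ] H} (hpM : p ∈ M) (hp : IsStarProjection p) (hdM : d ∈ M)
    (hds : IsSelfAdjoint d) (hpd : p * d = d) :
    ∃ p', ∃ R : Fin 2 → (H →L[ℂ] H), Block M p p' R ∧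
      ∃ c : ℝ, ‖down R d - (c : ℂ) • p'‖ ≤ 3 * ‖d‖ / 4 := by
  obtain ⟨q, hqM, w, hwM, hqP, hqp, hww, hsum, hqw, hpw, c, hcC, hcs, hcn⟩ :=
    step hc hpM hp (mul_one p) hdM hds hpd le_rfl
  obtain ⟨r, rfl⟩ := hs c hcC hcs
  have hqs := hqP.isSelfAdjoint.star_eq
  have hqw' : q * star w = star w := by
    have : w * q = w := by rw [← hww]; exact pi_mul_self (hww.symm ▸ hqP)
    simpa [hqs] using congrArg star this
  have hwp : star w * p = star w := by
    simpa [hp.isSelfAdjoint.star_eq] using congrArg star hpw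
  have hwq : star w * q = 0 := by simpa [hqs] using congrArg star hqw
  refine ⟨q, ![q, star w], ⟨?_, ?_, ?_, ?_, ?_, hqP, hqM⟩, r, le_trans (le_of_eq ?_) hcn⟩
  · intro a; fin_cases a <;> simp [hqM, star_mem hwM]
  · intro a; fin_cases a <;> simp [hqP.isIdempotentElem.eq, hqw']
  · intro a; fin_cases a <;> simp [hqp, hwp]
  · intro a b
    fin_cases a <;> fin_cases b <;>
      simp [hqs, hqP.isIdempotentElem.eq, hqw, hwq, hww]
  · simp [Fin.sum_univ_two, hqs, hqP.isIdempotentElem.eq, hsum]
  · congr 1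
    simp only [down, Fin.sum_univ_two, Matrix.cons_val_zero, Matrix.cons_val_one, hqs, star_star,
      smul_mul_assoc, one_mul, RCLike.real_smul_eq_coe_smul (K := ℂ) (2⁻¹ : ℝ)]
    norm_num

/-- A block of `2 ^ (j + 1)` pieces moving `d` towards the scalars. -/
lemma exists_block {M : VonNeumannAlgebra H} (hc : ContinuousPart M 1)
    (hs : ∀ c, InCentre M c → IsSelfAdjoint c → ∃ r : ℝ, c = (r : ℂ) • 1)
    {p d : H →L[ℂ] H} (hpM : p ∈ M) (hp : IsStarProjection p) (hdM : d ∈ M)
    (hds : IsSelfAdjoint d) (hpd : p * d = d) (j : ℕ) :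
    ∃ p', ∃ R : Fin (2 ^ (j + 1)) → (H →L[ℂ] H), Block M p p' R ∧
      ∃ c : ℝ, ‖down R d - (c : ℂ) • p'‖ ≤ 3 * ‖d‖ / 4 := by
  suffices h : ∃ n, n = 2 ^ (j + 1) ∧ ∃ p', ∃ R : Fin n → (H →L[ℂ] H), Block M p p' R ∧
      ∃ c : ℝ, ‖down R d - (c : ℂ) • p'‖ ≤ 3 * ‖d‖ / 4 by
    obtain ⟨n, rfl, h⟩ := h
    exact h
  induction j with
  | zero => exact ⟨2, rfl, exists_block2 hc hs hpM hp hdM hds hpd⟩
  | succ j ih =>
    obtain ⟨n, hn, p', R, hR, c, hcn⟩ := ih
    obtain ⟨p'', R', hR', -⟩ := exists_block2 hc hs hR.memP hR.proj (zero_mem M)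
      (IsSelfAdjoint.zero _) (mul_zero p')
    refine ⟨n * 2, by rw [hn, pow_succ 2 (j + 1)], p'', compR R R', hR.comp hR', c, ?_⟩
    have e : down (compR R R') d - (c : ℂ) • p'' = down R' (down R d - (c : ℂ) • p') := by
      rw [down_compR, down_sub, down_smul, hR'.down_p two_pos]
    rw [e]
    exact (hR'.norm_down_le _).trans hcn

end VP085.Bridge
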