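import Vale.Agent.P085.Lit.Statement
import Vale.Agent.P104.Continuous.Halve

/-!
P085: a type II_1 factor has no abelian projections.
-/

namespace VP085.Bridge

open scoped InnerProductSpace
open Vale.Agent.P104 Vale.Agent.P104.Continuous

variable {H : Type} [NormedAddCommGroup H] [InnerProductSpace ℂ H] [CompleteSpace H]
  {M : VonNeumannAlgebra H} {ξ : ℕ → H}

/-- The squared two-norm of an operator. -/
noncomputable def sqTwo (ξ : ℕ → H) (x : H →L[ℂ] H) : ℝ := ∑' n, ‖x (ξ n)‖ ^ 2

theorem summable_sq (ht : Lit.IsFaithfulTrace H M ξ) (x : H →L[ℂ] H) :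
    Summable fun n => ‖x (ξ n)‖ ^ 2 :=
  Summable.of_nonneg_of_le (fun n => sq_nonneg _)
    (fun n => (pow_le_pow_left₀ (norm_nonneg _) (x.le_opNorm _) 2).trans_eq (mul_pow _ _ 2))
    (ht.1.summable.mul_left (‖x‖ ^ 2))

theorem ofReal_sqTwo (x : H →L[ℂ] H) :
    (sqTwo ξ x : ℂ) = ∑' n, ⟪ξ n, star x (x (ξ n))⟫_ℂ := by
  rw [sqTwo, Complex.ofReal_tsum]
  refine tsum_congr fun n => ?_
  rw [ContinuousLinearMap.star_eq_adjoint, ContinuousLinearMap.adjoint_inner_right,
    inner_self_eq_norm_sq_to_K]
  simp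

theorem sqTwo_star (ht : Lit.IsFaithfulTrace H M ξ) {x : H →L[ℂ] H} (hx : x ∈ M) :
    sqTwo ξ (star x) = sqTwo ξ x := by
  apply Complex.ofReal_injective
  rw [ofReal_sqTwo, ofReal_sqTwo, star_star, ht.2.1 x hx _ (star_mem hx)]

theorem sqTwo_eq_of_mul {x p : H →L[ℂ] H} (hp : IsStarProjection p) (h : star x * x = p) :
    sqTwo ξ x = sqTwo ξ p := by
  apply Complex.ofReal_injective
  rw [ofReal_sqTwo, ofReal_sqTwo]
  refine tsum_congr fun n => ?_
  rw [show star x (x (ξ n)) = (star x * x) (ξ n) from rfl,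
    show star p (p (ξ n)) = (star p * p) (ξ n) from rfl, h, hp.isSelfAdjoint.star_eq,
    hp.isIdempotentElem.eq]

theorem sq_add_sq {p : H →L[ℂ] H} (hp : IsStarProjection p) (h : H) :
    ‖p h‖ ^ 2 + ‖(1 - p) h‖ ^ 2 = ‖h‖ ^ 2 := by
  have h0 : ⟪p h, (1 - p) h⟫_ℂ = 0 := by
    rw [inner_proj hp.isSelfAdjoint, ← apply_mul, mul_sub, mul_one, hp.isIdempotentElem.eq,
      sub_self, zero_apply, inner_zero_right]
  have := norm_add_sq_eq_norm_sq_add_norm_sq_of_inner_eq_zero _ _ h0
  rw [show p h + (1 - p) h = h by simp [sub_apply]] at this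
  simp only [sq, this]

theorem centralProj_eq_one (hf : Lit.IsFactor H M) {c : H →L[ℂ] H} (hc : IsStarProjection c)
    (hcM : c ∈ M) (hcc : ∀ x ∈ M, c * x = x * c) (h0 : c ≠ 0) : c = 1 := by
  obtain ⟨l, hl⟩ := hf c hcM hcc
  have e := hc.isIdempotentElem.eq
  rw [hl, smul_mul_smul_comm, mul_one, ← sub_eq_zero, ← sub_smul, smul_eq_zero] at e
  rcases e with e | e
  · rcases mul_eq_zero.1 (show l * (l - 1) = 0 by rw [← e]; ring) with h | h
    · exact absurd (by rw [hl, h, zero_smul]) h0
    · rw [hl, sub_eq_zero.1 h, one_smul]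
  · rw [hl, e, smul_zero] at h0
    exact absurd rfl h0

theorem eq_zero_of_sandwich (hf : Lit.IsFactor H M) {e f : H →L[ℂ] H} (hfM : f ∈ M)
    (hf0 : f ≠ 0) (h : ∀ a ∈ M, e * a * f = 0) : e = 0 := by
  obtain ⟨h1, h2⟩ := ccv_central (M := M) hfM
  have h3 : ccv M f ≠ 0 := fun hc => hf0 (by rw [← ccv_mul (M := M) f, hc, zero_mul])
  have := mul_ccv_eq_zero (M := M) (c := e) h
  rwa [show ccv M f = 1 from centralProj_eq_one hf (cl_isProj _) h1 h2 h3, mul_one] at this

theorem abelian_minimal (hf : Lit.IsFactor H M) {p : H →L[ℂ] H} (hp : IsAbelianProj M p)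
    {m : H →L[ℂ] H} (hm : m ∈ M) : ∃ l : ℂ, p * m * p = l • p := by
  obtain ⟨hpp, hpM, hab⟩ := hp
  have pp := hpp.isIdempotentElem.eq
  have triv : ∀ e ∈ M, IsStarProjection e → p * e = e → e * p = e → e = 0 ∨ e = p := by
    intro e he hep h1 h2
    refine or_iff_not_imp_right.2 fun hne => eq_zero_of_sandwich hf (sub_mem hpM he)
      (sub_ne_zero.2 (Ne.symm hne)) fun a ha => ?_
    have c := hab e he a ha
    rw [show p * e * p = e by rw [h1, h2]] at c
    have ee := hep.isIdempotentElem.eq
    calc e * a * (p - e) = e * (p * a * p) * (p - e) := by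
          have e1 : e * (p * a * p) = e * a * p := by rw [← mul_assoc, ← mul_assoc, h2]
          rw [e1, mul_assoc (e * a) p (p - e), mul_sub p, pp, h1]
      _ = p * a * p * (e * p - e * e) := by rw [c]; simp only [mul_assoc, mul_sub]
      _ = 0 := by rw [h2, ee, sub_self, mul_zero]
  have real : ∀ h ∈ M, IsSelfAdjoint h → p * h * p = h → ∃ l : ℂ, h = l • p := by
    intro h hh hhs hph
    have hp1 : p * h = h := by rw [← hph, ← mul_assoc, ← mul_assoc, pp]
    have hp2 : h * p = h := by rw [← hph, mul_assoc, pp]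
    have comm : ∀ x : H →L[ℂ] H, p * x = x → x * p = x → x * h = h * x := fun x hx1 hx2 =>
      comm_of_comm_proj hh hhs fun e he hep hce => by
        have hpe : Commute p e := hce p (hp1.trans hp2.symm)
          (by rw [hpp.isSelfAdjoint.star_eq]; exact hp1.trans hp2.symm)
        have c : x * (p * e) = p * e * x := by
          rcases triv (p * e) (mul_mem hpM he) (hpp.mul hep hpe) (by rw [← mul_assoc, pp])
            (by rw [mul_assoc, ← hpe.eq, ← mul_assoc, pp]) with h0 | h0 <;> rw [h0]
          · rw [mul_zero, zero_mul]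
          · rw [hx1, hx2]
        rwa [← mul_assoc, hx2, hpe.eq, mul_assoc, hx1] at c
    by_cases h0 : p = 0
    · exact ⟨0, by rw [← hph, h0]; simp⟩
    obtain ⟨a₀, ha₀⟩ : ∃ a, p a ≠ 0 := by
      by_contra hc
      push Not at hc
      exact h0 (ContinuousLinearMap.ext hc)
    set a := p a₀ with ha
    have hn : ⟪a, a⟫_ℂ ≠ 0 := inner_self_ne_zero.2 ha₀
    have pa : ∀ w : H, p (p w) = p w := fun w => DFunLike.congr_fun pp w
    refine ⟨⟪a, h a⟫_ℂ / ⟪a, a⟫_ℂ, ContinuousLinearMap.ext fun w => ?_⟩
    set x : H →L[ℂ] H := (innerSL ℂ a).smulRight (p w) with hxd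
    have hx : ∀ z, x z = ⟪a, z⟫_ℂ • p w := fun z => by simp [hxd]
    have hx1 : p * x = x := ContinuousLinearMap.ext fun z => by
      rw [apply_mul, hx, map_smul, pa]
    have hx2 : x * p = x := ContinuousLinearMap.ext fun z => by
      rw [apply_mul, hx, hx, ← inner_proj hpp.isSelfAdjoint, ha, pa]
    have e := DFunLike.congr_fun (comm x hx1 hx2) a
    rw [apply_mul, apply_mul, hx, hx, map_smul] at e
    have hw : h w = h (p w) := (DFunLike.congr_fun hp2 w).symm
    rw [hw, smul_apply, div_eq_inv_mul, ← smul_smul, e, smul_smul, inv_mul_cancel₀ hn, one_smul]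
  have hstar : star (p * m * p) = p * star m * p := by
    simp only [star_mul, hpp.isSelfAdjoint.star_eq, mul_assoc]
  set A := p * m * p + p * star m * p
  set B := Complex.I • (p * m * p - p * star m * p) with hB
  have mA : A ∈ M :=
    add_mem (mul_mem (mul_mem hpM hm) hpM) (mul_mem (mul_mem hpM (star_mem hm)) hpM)
  have mB : B ∈ M := smul_mem_vn _
    (sub_mem (mul_mem (mul_mem hpM hm) hpM) (mul_mem (mul_mem hpM (star_mem hm)) hpM))
  have hs2 : star (p * star m * p) = p * m * p := by
    simp only [star_mul, star_star, hpp.isSelfAdjoint.star_eq, mul_assoc]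
  have qq : ∀ y : H →L[ℂ] H, p * (p * y * p) * p = p * y * p := fun y => by
    simp only [mul_assoc, pp]
    rw [← mul_assoc p p, pp]
  obtain ⟨l₁, e₁⟩ := real A mA (by rw [IsSelfAdjoint, star_add, hstar, hs2, add_comm])
    (by simp only [A, mul_add, add_mul, qq])
  obtain ⟨l₂, e₂⟩ := real B mB
    (by rw [IsSelfAdjoint, hB, star_smul, star_sub, hstar, hs2, Complex.star_def, Complex.conj_I,
      neg_smul, ← smul_neg, neg_sub])
    (by simp only [hB, mul_smul_comm, smul_mul_assoc, mul_sub, sub_mul, qq])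
  refine ⟨(l₁ - Complex.I * l₂) / 2, ?_⟩
  rw [show p * m * p = (1 / 2 : ℂ) • (A + (-Complex.I) • B) by
    rw [hB, smul_smul, neg_mul, Complex.I_mul_I, neg_neg, one_smul]
    simp only [A]
    module, e₁, e₂]
  module

theorem finiteDim_of_minimal (hf : Lit.IsFactor H M) (ht : Lit.IsFaithfulTrace H M ξ)
    {p : H →L[ℂ] H} (hpM : p ∈ M) (hp : IsStarProjection p) (hp0 : p ≠ 0)
    (hmin : ∀ m ∈ M, ∃ l : ℂ, p * m * p = l • p) : ¬ Lit.IsInfiniteDim H M := by
  classical
  have pp := hp.isIdempotentElem.eq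
  have hpos : 0 < sqTwo ξ p := by
    have hne : ∃ n, p (ξ n) ≠ 0 := by
      by_contra hc
      push Not at hc
      exact hp0 (ht.2.2 p hpM hc)
    obtain ⟨n, hn⟩ := hne
    exact (summable_sq ht p).tsum_pos (fun k => sq_nonneg _) n
      (pow_pos (norm_pos_iff.2 hn) 2)
  let Sys : ℕ → Prop := fun n => ∃ w : Fin n → (H →L[ℂ] H), (∀ i, w i ∈ M) ∧
    ∀ i j, star (w i) * w j = if i = j then p else 0
  have bound : ∀ n, Sys n → (n : ℝ) * sqTwo ξ p ≤ 1 := by
    rintro n ⟨w, hw, hww⟩
    have hwp : ∀ i, sqTwo ξ (star (w i)) = sqTwo ξ p := fun i => by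
      rw [sqTwo_star ht (hw i)]
      exact sqTwo_eq_of_mul hp (by rw [hww, if_pos rfl])
    have hle : ∀ h : H, ∑ i, ‖star (w i) h‖ ^ 2 ≤ ‖h‖ ^ 2 := fun h => by
      set e := ∑ i, w i * star (w i) with he
      have hwpi : ∀ i, w i * p = w i := fun i => by
        have := pi_mul_self (u := w i) (by rw [hww, if_pos rfl]; exact hp)
        rwa [hww, if_pos rfl] at this
      have hes : IsStarProjection e := by
        refine ⟨?_, ?_⟩
        · show e * e = e
          rw [he, Finset.sum_mul_sum]
          refine Finset.sum_congr rfl fun i _ => ?_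
          rw [Finset.sum_eq_single i (fun j _ hj => by
              rw [mul_assoc, ← mul_assoc (star (w i)), hww, if_neg (Ne.symm hj), zero_mul, mul_zero])
            (fun hi => absurd (Finset.mem_univ i) hi),
            mul_assoc, ← mul_assoc (star (w i)), hww, if_pos rfl, ← mul_assoc, hwpi]
        · show star e = e
          simp [he, star_sum]
      have e2 : ∑ i, ‖star (w i) h‖ ^ 2 = ‖e h‖ ^ 2 := by
        have : (⟪h, e h⟫_ℂ).re = ∑ i, ‖star (w i) h‖ ^ 2 := by
          rw [he, sum_apply, inner_sum, Complex.re_sum]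
          refine Finset.sum_congr rfl fun i _ => ?_
          rw [apply_mul, ← ContinuousLinearMap.adjoint_inner_left,
            ← ContinuousLinearMap.star_eq_adjoint, inner_self_eq_norm_sq_to_K]
          simp [← Complex.ofReal_pow]
        rw [← this, show e h = (e * e) h by rw [hes.isIdempotentElem.eq], apply_mul,
          ← inner_proj hes.isSelfAdjoint, ← apply_mul, hes.isIdempotentElem.eq,
          inner_self_eq_norm_sq_to_K]
        simp [← Complex.ofReal_pow]
      rw [e2, ← sq_add_sq hes h]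
      exact le_add_of_nonneg_right (sq_nonneg _)
    calc (n : ℝ) * sqTwo ξ p = ∑ i : Fin n, sqTwo ξ (star (w i)) := by simp [hwp]
      _ = ∑' k, ∑ i : Fin n, ‖star (w i) (ξ k)‖ ^ 2 :=
        (Summable.tsum_finsetSum fun i _ => summable_sq ht _).symm
      _ ≤ ∑' k, ‖ξ k‖ ^ 2 := (summable_sum fun i _ => summable_sq ht _).tsum_le_tsum
        (fun k => hle _) ht.1.summable
      _ = 1 := ht.1.tsum_eq
  intro hinf
  have grow : ∀ n, Sys n → Sys (n + 1) := by
    rintro n ⟨w, hw, hww⟩
    set f := 1 - ∑ i, w i * star (w i) with hfd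
    have hfM : f ∈ M :=
      sub_mem (one_mem M) (sum_mem fun i _ => mul_mem (hw i) (star_mem (hw i)))
    have hwpi : ∀ i, w i * p = w i := fun i => by
      have := pi_mul_self (u := w i) (by rw [hww, if_pos rfl]; exact hp)
      rwa [hww, if_pos rfl] at this
    by_cases hf0 : f = 0
    · refine absurd ⟨Finset.univ.image fun q : Fin n × Fin n => w q.1 * star (w q.2),
        fun m hm => ?_⟩ hinf
      have e1 : ∑ i, w i * star (w i) = 1 := (sub_eq_zero.1 (hfd.symm.trans hf0)).symm
      have e : m = ∑ i, ∑ j, w i * (star (w i) * m * w j) * star (w j) := by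
        conv_lhs => rw [← one_mul m, ← mul_one (1 * m), ← e1]
        simp only [Finset.sum_mul, Finset.mul_sum, mul_assoc]
        rw [Finset.sum_comm]
      rw [e]
      refine Submodule.sum_mem _ fun i _ => Submodule.sum_mem _ fun j _ => ?_
      obtain ⟨l, hl⟩ := hmin _ (mul_mem (mul_mem (star_mem (hw i)) hm) (hw j))
      have e2 : w i * (star (w i) * m * w j) * star (w j) = l • (w i * star (w j)) := by
        calc _ = w i * (p * (star (w i) * m * w j) * p) * star (w j) := by
              have hpw : p * star (w i) = star (w i) := by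
                simpa [hp.isSelfAdjoint.star_eq] using congrArg star (hwpi i)
              simp only [← mul_assoc]
              rw [mul_assoc (w i) p (star (w i)), hpw, mul_assoc _ (w j) p, hwpi]
          _ = _ := by rw [hl, mul_smul_comm, hwpi, smul_mul_assoc]
      rw [e2]
      exact Submodule.smul_mem _ _ (Submodule.subset_span (Finset.mem_coe.2
        (Finset.mem_image.2 ⟨(i, j), Finset.mem_univ _, rfl⟩)))
    obtain ⟨a, ha, hne⟩ : ∃ a ∈ M, f * a * p ≠ 0 := by
      by_contra hc
      push Not at hc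
      exact hf0 (eq_zero_of_sandwich hf hpM hp0 hc)
    set x := f * a * p with hx
    have hxM : x ∈ M := mul_mem (mul_mem hfM ha) hpM
    obtain ⟨l, hl⟩ := hmin (star x * x) (mul_mem (star_mem hxM) hxM)
    have hxp : x * p = x := by rw [hx, mul_assoc, pp]
    have hxx : star x * x = l • p := by
      have hps : p * star x = star x := by
        simpa [hp.isSelfAdjoint.star_eq] using congrArg star hxp
      rw [← hl, ← mul_assoc p, hps, mul_assoc, hxp]
    have hl0 : l ≠ 0 := fun h0 => hne
      (eq_zero_of_star_mul_self (by rw [hxx, h0, zero_smul]))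
    obtain ⟨v0, hv0⟩ : ∃ a, p a ≠ 0 := by
      by_contra hc
      push Not at hc
      exact hp0 (ContinuousLinearMap.ext hc)
    have hlr : (l : ℂ) = ((‖x (p v0)‖ ^ 2 / ‖p v0‖ ^ 2 : ℝ) : ℂ) := by
      have e := congrArg (fun T : H →L[ℂ] H => ⟪p v0, T (p v0)⟫_ℂ) hxx
      simp only [apply_mul, smul_apply, inner_smul_right] at e
      rw [ContinuousLinearMap.star_eq_adjoint, ContinuousLinearMap.adjoint_inner_right,
        show p (p v0) = p v0 from DFunLike.congr_fun pp v0, inner_self_eq_norm_sq_to_K,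
        inner_self_eq_norm_sq_to_K] at e
      push_cast
      rw [eq_div_iff (by simpa using hv0)]
      exact e.symm
    set r : ℝ := ‖x (p v0)‖ ^ 2 / ‖p v0‖ ^ 2
    have hr : 0 < r := lt_of_le_of_ne (div_nonneg (sq_nonneg _) (sq_nonneg _))
      fun h0 => hl0 (by rw [hlr, ← h0, Complex.ofReal_zero])
    set u : H →L[ℂ] H := ((Real.sqrt r)⁻¹ : ℝ) • x with hu
    have hu' : u = (((Real.sqrt r)⁻¹ : ℝ) : ℂ) • x := by
      rw [hu]; exact (RCLike.real_smul_eq_coe_smul (K := ℂ) _ _)
    have huu : star u * u = p := by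
      rw [hu', star_smul, smul_mul_smul_comm, hxx, smul_smul, hlr, Complex.star_def,
        Complex.conj_ofReal, ← Complex.ofReal_mul, ← Complex.ofReal_mul]
      rw [show (Real.sqrt r)⁻¹ * (Real.sqrt r)⁻¹ * r = 1 by
        rw [← mul_inv, Real.mul_self_sqrt hr.le, inv_mul_cancel₀ hr.ne'], Complex.ofReal_one,
        one_smul]
    have hwf : ∀ i, star (w i) * u = 0 := fun i => by
      have : star (w i) * f = 0 := by
        rw [hfd, mul_sub, mul_one, Finset.mul_sum, Finset.sum_eq_single i (fun j _ hj => by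
            rw [← mul_assoc, hww, if_neg (Ne.symm hj), zero_mul])
          (fun hi => absurd (Finset.mem_univ i) hi), ← mul_assoc, hww, if_pos rfl]
        have hpw : p * star (w i) = star (w i) := by
          simpa [hp.isSelfAdjoint.star_eq] using congrArg star (hwpi i)
        rw [hpw, sub_self]
      rw [hu', mul_smul_comm, hx, ← mul_assoc, ← mul_assoc, this, zero_mul, zero_mul, smul_zero]
    refine ⟨Fin.snoc w u, fun i => ?_, fun i j => ?_⟩
    · induction i using Fin.lastCases with
      | last => rw [Fin.snoc_last, hu']; exact smul_mem_vn _ hxM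
      | cast i => rw [Fin.snoc_castSucc]; exact hw i
    · induction i using Fin.lastCases with
      | last =>
        induction j using Fin.lastCases with
        | last => rw [Fin.snoc_last, if_pos rfl, huu]
        | cast j =>
          rw [Fin.snoc_last, Fin.snoc_castSucc, if_neg (Fin.castSucc_lt_last j).ne']
          simpa using congrArg star (hwf j)
      | cast i =>
        induction j using Fin.lastCases with
        | last => rw [Fin.snoc_last, Fin.snoc_castSucc, if_neg (Fin.castSucc_lt_last i).ne, hwf]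
        | cast j => rw [Fin.snoc_castSucc, Fin.snoc_castSucc, hww]; simp
  have all : ∀ n, Sys n := fun n => by
    induction n with
    | zero => exact ⟨Fin.elim0, fun i => i.elim0, fun i => i.elim0⟩
    | succ n ih => exact grow n ih
  obtain ⟨n, hn⟩ := exists_nat_gt (1 / sqTwo ξ p)
  rw [div_lt_iff₀ hpos] at hn
  exact (bound n (all n)).not_gt hn

theorem continuousPart_one (h : Lit.IsTypeTwoOneFactor H M) : ContinuousPart M 1 := by
  obtain ⟨hf, hi, ξ, ht⟩ := h
  intro p hp
  rw [mul_one]
  by_contra h0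
  exact finiteDim_of_minimal hf ht hp.2.1 hp.1 h0 (fun m hm => abelian_minimal hf hp hm) hi

end VP085.Bridge
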