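import Vale.Agent.P085.Bridge.Setting

/-!
P085, bridge: an element whose algebra is dense for the two-norm generates as a von Neumann
algebra, and the reduction of `BridgeSpec` to the existence of a chain.
-/

open scoped InnerProductSpace ENNReal lp
open Filter Topology

namespace VP085.Bridge

open VP086

variable {H : Type} [NormedAddCommGroup H] [InnerProductSpace ℂ H] [CompleteSpace H]
  (M : VonNeumannAlgebra H) {ξ : ℕ → H}

/-- An operator commuting with the algebra of a two-norm dense set commutes with everything. -/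
theorem commute_of_dense (hξ : Lit.IsFaithfulTrace H M ξ) {s : Set M.toStarSubalgebra}
    (hs : ∀ x, x ∈ l2Closure (trFac M hξ).toStd s) {T : H →L[ℂ] H}
    (hT : ∀ b ∈ StarAlgebra.adjoin ℂ s, T * (b : H →L[ℂ] H) = (b : H →L[ℂ] H) * T)
    (x : M.toStarSubalgebra) : T * (x : H →L[ℂ] H) = (x : H →L[ℂ] H) * T := by
  obtain ⟨y, hy, hlim⟩ := mem_closure_iff_seq_limit.1 (hs x)
  choose b hb hby using hy
  have hl : Tendsto (fun m => vec M hξ (b m)) atTop (𝓝 (vec M hξ x)) :=
    hlim.congr fun m => (hby m).symm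
  have hl' : Tendsto (fun m => vec M hξ (star (b m))) atTop (𝓝 (vec M hξ (star x))) := by
    rw [tendsto_iff_norm_sub_tendsto_zero] at hl ⊢
    refine hl.congr fun m => ?_
    rw [← map_sub, ← map_sub, ← norm_vec_star M hξ (b m - x), star_sub]
  have happ : ∀ {c : ℕ → M.toStarSubalgebra} {z : M.toStarSubalgebra},
      Tendsto (fun m => vec M hξ (c m)) atTop (𝓝 (vec M hξ z)) → ∀ U ∈ M.commutant, ∀ n,
      Tendsto (fun m => (c m : H →L[ℂ] H) (U (ξ n))) atTop (𝓝 ((z : H →L[ℂ] H) (U (ξ n)))) := by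
    intro c z hc U hU n
    have h1 : Tendsto (fun m => (c m : H →L[ℂ] H) (ξ n)) atTop (𝓝 ((z : H →L[ℂ] H) (ξ n))) := by
      refine tendsto_iff_norm_sub_tendsto_zero.2 ?_
      refine squeeze_zero (fun _ => norm_nonneg _) (fun m => ?_)
        (tendsto_iff_norm_sub_tendsto_zero.1 hc)
      exact lp.norm_apply_le_norm (by norm_num) (vec M hξ (c m) - vec M hξ z) n
    have hU' : ∀ w : M.toStarSubalgebra, (w : H →L[ℂ] H) (U (ξ n)) = U ((w : H →L[ℂ] H) (ξ n)) :=
      fun w => DFunLike.congr_fun (VonNeumannAlgebra.mem_commutant_iff.1 hU _ w.2) (ξ n)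
    simp only [hU']
    exact (U.continuous.tendsto _).comp h1
  refine ContinuousLinearMap.ext_on (dense_orbit M hξ) fun v hv => ?_
  obtain ⟨U, hU, n, rfl⟩ := hv
  set W := {v | ∃ T ∈ M.commutant, ∃ n, (T : H →L[ℂ] H) (ξ n) = v}
  refine (dense_orbit M hξ).eq_of_inner_left (𝕜 := ℂ) fun w hw => ?_
  induction hw using Submodule.span_induction with
  | mem w hw =>
    obtain ⟨U', hU', k, rfl⟩ := hw
    have h1 : Tendsto (fun m => ⟪T ((b m : H →L[ℂ] H) (U (ξ n))), U' (ξ k)⟫_ℂ) atTop
        (𝓝 ⟪(T * (x : H →L[ℂ] H)) (U (ξ n)), U' (ξ k)⟫_ℂ) :=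
      ((T.continuous.tendsto _).comp (happ hl U hU n)).inner tendsto_const_nhds
    have h2 : Tendsto (fun m => ⟪T (U (ξ n)), (star (b m) : M.toStarSubalgebra).1 (U' (ξ k))⟫_ℂ)
        atTop (𝓝 ⟪T (U (ξ n)), (star x : M.toStarSubalgebra).1 (U' (ξ k))⟫_ℂ) :=
      tendsto_const_nhds.inner (happ hl' U' hU' k)
    have h3 : ∀ (c : M.toStarSubalgebra) (v w : H),
        ⟪v, (star c : M.toStarSubalgebra).1 w⟫_ℂ = ⟪(c : H →L[ℂ] H) v, w⟫_ℂ := fun c v w => by
      show ⟪v, star (c : H →L[ℂ] H) w⟫_ℂ = _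
      rw [ContinuousLinearMap.star_eq_adjoint, ContinuousLinearMap.adjoint_inner_right]
    refine tendsto_nhds_unique h1 ?_
    rw [show ((x : H →L[ℂ] H) * T) (U (ξ n)) = (x : H →L[ℂ] H) (T (U (ξ n))) from rfl, ← h3]
    refine h2.congr fun m => ?_
    rw [h3]
    exact congrArg (fun z => ⟪z, U' (ξ k)⟫_ℂ) (DFunLike.congr_fun (hT _ (hb m)) (U (ξ n))).symm
  | zero => simp
  | add a c _ _ ha hc => simp only [inner_add_right, ha, hc]
  | smul r a _ ha => simp only [inner_smul_right, ha]

/-- An element whose algebra is dense for the two-norm generates. -/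
theorem singlyGenerated_of_dense (hξ : Lit.IsFaithfulTrace H M ξ) (a : M.toStarSubalgebra)
    (h : ∀ x, x ∈ l2Closure (trFac M hξ).toStd {a}) : Lit.SinglyGenerated H M := by
  refine ⟨a, a.2, Set.Subset.antisymm ?_ ?_⟩
  · conv_rhs => rw [← VonNeumannAlgebra.centralizer_centralizer M]
    refine Set.centralizer_subset (Set.centralizer_subset ?_)
    rintro z (rfl | rfl)
    · exact a.2
    · exact star_mem a.2
  · intro x hx T hT
    refine commute_of_dense M hξ h (fun b hb => ?_) ⟨x, hx⟩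
    induction hb using StarAlgebra.adjoin_induction generalizing T with
    | mem z hz =>
      rw [Set.mem_singleton_iff] at hz
      exact hz ▸ (hT _ (Or.inl rfl)).symm
    | algebraMap r => exact ((Algebra.commutes r T)).symm
    | add y z _ _ hy hz => simp only [AddMemClass.coe_add, mul_add, add_mul, hy T hT, hz T hT]
    | mul y z _ _ hy hz =>
      rw [MulMemClass.coe_mul, ← mul_assoc, hy T hT, mul_assoc, hz T hT, mul_assoc]
    | star y _ hy =>
      have hT' : star T ∈ Set.centralizer {(a : H →L[ℂ] H), star (a : H →L[ℂ] H)} := by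
        rintro z (rfl | rfl)
        · simpa [star_mul] using (congrArg star (hT _ (Or.inr rfl))).symm
        · simpa [star_mul] using (congrArg star (hT _ (Or.inl rfl))).symm
      have := congrArg star (hy _ hT')
      rw [star_mul, star_mul, star_star] at this
      exact this.symm

/-- The chain module of the bridge. -/
def ChainSpec : Prop :=
  ∀ (H : Type) [NormedAddCommGroup H] [InnerProductSpace ℂ H] [CompleteSpace H]
    [TopologicalSpace.SeparableSpace H] (M : VonNeumannAlgebra H) (ξ : ℕ → H),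
    Lit.IsFactor H M → Lit.IsInfiniteDim H M → ∀ hξ : Lit.IsFaithfulTrace H M ξ,
    ∃ C : Chain (trFac M hξ), C.n 0 = 8

/-- `BridgeSpec` from the chain. -/
theorem bridgeSpec_of (hC : ChainSpec) : BridgeSpec := by
  intro hS H _ _ _ _ M hM
  obtain ⟨hF, hinf, ξ, hξ⟩ := hM
  obtain ⟨C, hC8⟩ := hC H M ξ hF hinf hξ
  obtain ⟨a, ha⟩ := hS _ _ (trFac M hξ) C hC8 (trFac_sepTwo M hξ)
  exact singlyGenerated_of_dense M hξ a ha

end VP085.Bridge
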