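import Vale.Agent.P085.Defs

/-!
P085, bridge: a finite von Neumann algebra with a faithful normal trace as an abstract setting.
The standard map is `x ↦ (x (ξ n))ₙ` into `ℓ²(ℕ, H)`.
-/

open scoped InnerProductSpace ENNReal lp
open Filter Topology

namespace VP085.Bridge

variable {H : Type} [NormedAddCommGroup H] [InnerProductSpace ℂ H] [CompleteSpace H]

instance isClosed_alg (M : VonNeumannAlgebra H) :
    IsClosed (M.toStarSubalgebra : Set (H →L[ℂ] H)) := by
  have h : IsClosed (Set.centralizer (Set.centralizer (M : Set (H →L[ℂ] H)))) :=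
    Set.isClosed_centralizer _
  rwa [VonNeumannAlgebra.centralizer_centralizer] at h

/-- The Hilbert space of the standard map. -/
abbrev L2 (H : Type) [NormedAddCommGroup H] : Type := lp (fun _ : ℕ => H) 2

omit [CompleteSpace H] in
/-- A bounded operator applied to a square summable sequence of vectors. -/
theorem memℓp_apply (ξ : ℕ → H) (h : Summable fun n => ‖ξ n‖ ^ 2) (x : H →L[ℂ] H) :
    Memℓp (fun n => x (ξ n)) 2 := by
  refine memℓp_gen ?_
  refine (h.mul_left (‖x‖ ^ 2)).of_nonneg_of_le (fun n => by positivity) fun n => ?_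
  rw [show ((2 : ℝ≥0∞).toReal) = ((2 : ℕ) : ℝ) by norm_num, Real.rpow_natCast, ← mul_pow]
  exact pow_le_pow_left₀ (norm_nonneg _) (x.le_opNorm _) 2

variable (M : VonNeumannAlgebra H) {ξ : ℕ → H} (hξ : Lit.IsFaithfulTrace H M ξ)

/-- The standard map. -/
noncomputable def vec : M.toStarSubalgebra →ₗ[ℂ] L2 H where
  toFun x := ⟨fun n => (x : H →L[ℂ] H) (ξ n), memℓp_apply ξ hξ.1.summable _⟩
  map_add' _ _ := rfl
  map_smul' _ _ := rfl

theorem vec_apply (x : M.toStarSubalgebra) (n : ℕ) :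
    vec M hξ x n = (x : H →L[ℂ] H) (ξ n) := rfl

theorem inner_vec (x y : M.toStarSubalgebra) :
    ⟪vec M hξ x, vec M hξ y⟫_ℂ = ∑' n, ⟪ξ n, (star (x : H →L[ℂ] H)) ((y : H →L[ℂ] H) (ξ n))⟫_ℂ := by
  rw [lp.inner_eq_tsum]
  refine tsum_congr fun n => ?_
  rw [vec_apply, vec_apply, ContinuousLinearMap.star_eq_adjoint,
    ContinuousLinearMap.adjoint_inner_right]

theorem norm_vec_sq (x : M.toStarSubalgebra) :
    ‖vec M hξ x‖ ^ 2 = ∑' n, ‖(x : H →L[ℂ] H) (ξ n)‖ ^ 2 := by
  have h := lp.hasSum_norm (p := 2) (by norm_num) (vec M hξ x)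
  simp only [show ((2 : ℝ≥0∞).toReal) = ((2 : ℕ) : ℝ) by norm_num, Real.rpow_natCast] at h
  exact h.tsum_eq.symm

theorem inner_one_vec (x : M.toStarSubalgebra) :
    ⟪vec M hξ 1, vec M hξ x⟫_ℂ = ∑' n, ⟪ξ n, (x : H →L[ℂ] H) (ξ n)⟫_ℂ := by
  rw [inner_vec]
  refine tsum_congr fun n => ?_
  simp

theorem tau_comm_vec (x y : M.toStarSubalgebra) :
    ⟪vec M hξ 1, vec M hξ (x * y)⟫_ℂ = ⟪vec M hξ 1, vec M hξ (y * x)⟫_ℂ := by
  rw [inner_one_vec, inner_one_vec]
  exact hξ.2.1 _ x.2 _ y.2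

theorem norm_vec_star (x : M.toStarSubalgebra) : ‖vec M hξ (star x)‖ = ‖vec M hξ x‖ := by
  have e : ⟪vec M hξ (star x), vec M hξ (star x)⟫_ℂ = ⟪vec M hξ x, vec M hξ x⟫_ℂ := by
    rw [inner_vec, inner_vec]
    simpa using hξ.2.1 _ x.2 _ (star_mem x.2)
  simp only [inner_self_eq_norm_sq_to_K] at e
  have : ‖vec M hξ (star x)‖ ^ 2 = ‖vec M hξ x‖ ^ 2 := by exact_mod_cast e
  exact (pow_left_inj₀ (norm_nonneg _) (norm_nonneg _) two_ne_zero).1 this

theorem vec_left_le (a x : M.toStarSubalgebra) :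
    ‖vec M hξ (a * x)‖ ≤ ‖a‖ * ‖vec M hξ x‖ := by
  refine lp.norm_le_of_forall_sum_le (by norm_num) (by positivity) fun s => ?_
  rw [Real.mul_rpow (norm_nonneg _) (norm_nonneg _)]
  refine le_trans ?_ (mul_le_mul_of_nonneg_left
    (lp.sum_rpow_le_norm_rpow (by norm_num) (vec M hξ x) s) (Real.rpow_nonneg (norm_nonneg _) _))
  rw [Finset.mul_sum]
  refine Finset.sum_le_sum fun n _ => ?_
  rw [← Real.mul_rpow (norm_nonneg _) (norm_nonneg _)]
  exact Real.rpow_le_rpow (norm_nonneg _) ((a : H →L[ℂ] H).le_opNorm _) (by norm_num)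

theorem vec_right_le (a x : M.toStarSubalgebra) :
    ‖vec M hξ (x * a)‖ ≤ ‖a‖ * ‖vec M hξ x‖ := by
  rw [← norm_vec_star, star_mul, ← norm_vec_star M hξ x, ← norm_star a]
  exact vec_left_le M hξ _ _

theorem norm_vec_one : ‖vec M hξ 1‖ = 1 := by
  have h := norm_vec_sq M hξ 1
  simp only [OneMemClass.coe_one, one_apply_eq_self, hξ.1.tsum_eq] at h
  exact (pow_eq_one_iff_of_nonneg (norm_nonneg _) two_ne_zero).1 h

include hξ in
/-- The vectors `T (ξ n)`, `T` in the commutant, span a dense subspace. -/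
theorem dense_orbit :
    Dense (Submodule.span ℂ
      {v | ∃ T ∈ M.commutant, ∃ n, (T : H →L[ℂ] H) (ξ n) = v} : Set H) := by
  set W := Submodule.span ℂ {v | ∃ T ∈ M.commutant, ∃ n, (T : H →L[ℂ] H) (ξ n) = v} with hW
  set K := W.topologicalClosure with hK
  have : CompleteSpace K := (W.isClosed_topologicalClosure).completeSpace_coe
  have hinv : ∀ T ∈ M.commutant, ∀ v ∈ K, (T : H →L[ℂ] H) v ∈ K := by
    intro T hT
    have h1 : ∀ v ∈ W, T v ∈ W := by
      intro v hv
      have : W ≤ W.comap (T : H →ₗ[ℂ] H) := by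
        refine Submodule.span_le.2 ?_
        rintro - ⟨S, hS, n, rfl⟩
        exact Submodule.subset_span ⟨T * S, mul_mem hT hS, n, rfl⟩
      exact this hv
    intro v hv
    rw [← SetLike.mem_coe, hK, Submodule.topologicalClosure_coe] at hv ⊢
    exact map_mem_closure T.continuous hv h1
  have hmem : K.starProjection ∈ M := by
    rw [← SetLike.mem_coe, ← VonNeumannAlgebra.centralizer_centralizer M,
      Set.mem_centralizer_iff, ← VonNeumannAlgebra.coe_commutant]
    intro T hT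
    refine ContinuousLinearMap.ext fun v => ?_
    refine Submodule.eq_starProjection_of_mem_of_inner_eq_zero
      (hinv T hT _ (K.starProjection_apply_mem v)) (fun w hw => ?_) |>.symm
    show ⟪T v - T (K.starProjection v), w⟫_ℂ = 0
    rw [← map_sub, ← ContinuousLinearMap.adjoint_inner_right]
    exact Submodule.starProjection_inner_eq_zero v _ (hinv _ (star_mem hT) w hw)
  have h1 : (1 : H →L[ℂ] H) - K.starProjection = 0 := by
    refine hξ.2.2 _ (sub_mem (one_mem M) hmem) fun n => ?_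
    rw [sub_apply, one_apply_eq_self, Submodule.starProjection_eq_self_iff.2, sub_self]
    exact W.le_topologicalClosure (Submodule.subset_span ⟨1, one_mem M.commutant, n, rfl⟩)
  have h2 : ∀ v, v ∈ K := fun v => by
    refine Submodule.starProjection_eq_self_iff.1 ?_
    have := congrArg (fun f : H →L[ℂ] H => f v) h1
    simp only [sub_apply, one_apply_eq_self, zero_apply, sub_eq_zero] at this
    exact this.symm
  intro v
  have := h2 v
  rwa [← SetLike.mem_coe, hK, Submodule.topologicalClosure_coe] at this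

theorem mem_of_commute {a : H →L[ℂ] H} (h : ∀ T ∈ M.commutant, T * a = a * T) : a ∈ M := by
  rw [← SetLike.mem_coe, ← VonNeumannAlgebra.centralizer_centralizer M, Set.mem_centralizer_iff,
    ← VonNeumannAlgebra.coe_commutant]
  exact h

/-- The unit ball is complete for the two-norm. -/
theorem vec_complete (x : ℕ → M.toStarSubalgebra) (hx : ∀ m, ‖x m‖ ≤ 1)
    (hc : CauchySeq fun m => vec M hξ (x m)) :
    ∃ a : M.toStarSubalgebra, ‖a‖ ≤ 1 ∧
      Tendsto (fun m => vec M hξ (x m)) atTop (𝓝 (vec M hξ a)) := by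
  obtain ⟨η, hη⟩ := cauchySeq_tendsto_of_complete hc
  have hcoord : ∀ n, Tendsto (fun m => (x m : H →L[ℂ] H) (ξ n)) atTop (𝓝 (η n)) := by
    intro n
    refine tendsto_iff_norm_sub_tendsto_zero.2 ?_
    refine squeeze_zero (fun _ => norm_nonneg _) (fun m => ?_)
      (tendsto_iff_norm_sub_tendsto_zero.1 hη)
    exact lp.norm_apply_le_norm (by norm_num) (vec M hξ (x m) - η) n
  have hW : ∀ v ∈ Submodule.span ℂ {v | ∃ T ∈ M.commutant, ∃ n, (T : H →L[ℂ] H) (ξ n) = v},
      ∃ w, Tendsto (fun m => (x m : H →L[ℂ] H) v) atTop (𝓝 w) := by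
    intro v hv
    induction hv using Submodule.span_induction with
    | mem v hv =>
      obtain ⟨T, hT, n, rfl⟩ := hv
      refine ⟨T (η n), ((T.continuous.tendsto _).comp (hcoord n)).congr fun m => ?_⟩
      exact (DFunLike.congr_fun (VonNeumannAlgebra.mem_commutant_iff.1 hT _ (x m).2) (ξ n)).symm
    | zero => exact ⟨0, by simp⟩
    | add v w _ _ h1 h2 =>
      obtain ⟨a, ha⟩ := h1
      obtain ⟨b, hb⟩ := h2
      exact ⟨a + b, (ha.add hb).congr fun m => (map_add _ _ _).symm⟩
    | smul c v _ h1 =>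
      obtain ⟨a, ha⟩ := h1
      exact ⟨c • a, (ha.const_smul c).congr fun m => (map_smul _ _ _).symm⟩
  have hx' : ∀ m v, ‖(x m : H →L[ℂ] H) v‖ ≤ ‖v‖ := fun m v =>
    ((x m : H →L[ℂ] H).le_opNorm v).trans (mul_le_of_le_one_left (norm_nonneg _) (hx m))
  have hlim : ∀ v, ∃ w, Tendsto (fun m => (x m : H →L[ℂ] H) v) atTop (𝓝 w) := by
    intro v
    refine cauchySeq_tendsto_of_complete (Metric.cauchySeq_iff.2 fun ε hε => ?_)
    obtain ⟨v', hv', hd⟩ := Metric.mem_closure_iff.1 (dense_orbit M hξ v) (ε / 3) (by positivity)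
    obtain ⟨w, hw⟩ := hW v' hv'
    obtain ⟨N, hN⟩ := Metric.cauchySeq_iff.1 hw.cauchySeq (ε / 3) (by positivity)
    refine ⟨N, fun m hm n hn => ?_⟩
    have h1 : ∀ k, dist ((x k : H →L[ℂ] H) v) ((x k : H →L[ℂ] H) v') ≤ dist v v' := fun k => by
      rw [dist_eq_norm, dist_eq_norm, ← map_sub]
      exact hx' k _
    calc dist ((x m : H →L[ℂ] H) v) ((x n : H →L[ℂ] H) v)
        ≤ dist ((x m : H →L[ℂ] H) v) ((x m : H →L[ℂ] H) v') +
          dist ((x m : H →L[ℂ] H) v') ((x n : H →L[ℂ] H) v') +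
          dist ((x n : H →L[ℂ] H) v') ((x n : H →L[ℂ] H) v) := dist_triangle4 _ _ _ _
      _ < ε := by
        have := hN m hm n hn
        have := h1 m
        have := h1 n
        rw [dist_comm ((x n : H →L[ℂ] H) v')]
        linarith
  choose f hf using hlim
  let lin : H →ₗ[ℂ] H :=
    { toFun := f
      map_add' := fun v w => tendsto_nhds_unique (hf (v + w))
        (((hf v).add (hf w)).congr fun m => ((x m : H →L[ℂ] H).map_add v w).symm)
      map_smul' := fun c v => tendsto_nhds_unique (hf (c • v))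
        (((hf v).const_smul c).congr fun m => ((x m : H →L[ℂ] H).map_smul c v).symm) }
  have hb : ∀ v, ‖lin v‖ ≤ 1 * ‖v‖ := fun v => by
    rw [one_mul]
    exact le_of_tendsto (hf v).norm (Eventually.of_forall fun m => hx' m v)
  let a : H →L[ℂ] H := lin.mkContinuous 1 hb
  have ha : a ∈ M := mem_of_commute M fun T hT => ContinuousLinearMap.ext fun v =>
    tendsto_nhds_unique ((T.continuous.tendsto _).comp (hf v)) ((hf (T v)).congr fun m =>
      DFunLike.congr_fun (VonNeumannAlgebra.mem_commutant_iff.1 hT _ (x m).2) v)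
  refine ⟨⟨a, ha⟩, lin.mkContinuous_norm_le zero_le_one hb, ?_⟩
  convert hη using 2
  refine lp.ext (funext fun n => ?_)
  exact tendsto_nhds_unique (hf (ξ n)) (hcoord n)

/-- The setting of a finite von Neumann algebra with a faithful normal trace. -/
noncomputable def trFac : Fac M.toStarSubalgebra (L2 H) where
  ι := vec M hξ
  norm_one := norm_vec_one M hξ
  inner_ι x y := by
    rw [inner_vec, inner_one_vec]
    rfl
  left_le := vec_left_le M hξ
  right_le := vec_right_le M hξ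
  tau_comm := tau_comm_vec M hξ
  faithful x hx := Subtype.ext (hξ.2.2 _ x.2 fun n => by
    have := congrArg (fun v : L2 H => v n) hx
    simpa [vec_apply] using this)
  complete := vec_complete M hξ

theorem trFac_ι_apply (x : M.toStarSubalgebra) (n : ℕ) :
    (trFac M hξ).ι x n = (x : H →L[ℂ] H) (ξ n) := rfl

theorem trFac_tau (x : M.toStarSubalgebra) :
    (trFac M hξ).τ x = ∑' n, ⟪ξ n, (x : H →L[ℂ] H) (ξ n)⟫_ℂ := inner_one_vec M hξ x

theorem norm_trFac_ι_sq (x : M.toStarSubalgebra) :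
    ‖(trFac M hξ).ι x‖ ^ 2 = ∑' n, ‖(x : H →L[ℂ] H) (ξ n)‖ ^ 2 := norm_vec_sq M hξ x

omit [CompleteSpace H] in
theorem separableSpace_L2 [TopologicalSpace.SeparableSpace H] :
    TopologicalSpace.SeparableSpace (L2 H) := by
  let g : ∀ N : ℕ, (Fin N → H) → L2 H := fun N f => ∑ i : Fin N, lp.single 2 (i : ℕ) (f i)
  have hg : ∀ N, Continuous (g N) := fun N =>
    continuous_finsetSum _ fun i _ => (lp.singleContinuousLinearMap ℂ (fun _ : ℕ => H) 2
      (i : ℕ)).continuous.comp (continuous_apply i)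
  have hsep := (TopologicalSpace.IsSeparable.iUnion fun N =>
    TopologicalSpace.isSeparable_range (hg N)).closure
  refine TopologicalSpace.isSeparable_univ_iff.1 (hsep.mono fun v _ => ?_)
  refine mem_closure_of_tendsto (lp.hasSum_single (by norm_num) v).tendsto_sum_nat
    (Eventually.of_forall fun N => Set.mem_iUnion.2 ⟨N, fun i => v i, ?_⟩)
  exact Fin.sum_univ_eq_sum_range (fun i => lp.single 2 i (v i)) N

theorem trFac_sepTwo [TopologicalSpace.SeparableSpace H] : (trFac M hξ).SepTwo := by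
  have := separableSpace_L2 (H := H)
  have : SecondCountableTopology (L2 H) := UniformSpace.secondCountable_of_separable _
  have : Nonempty (Set.range (trFac M hξ).ι) := ⟨⟨_, 1, rfl⟩⟩
  have hd : ∀ i, ∃ a, (trFac M hξ).ι a =
      (TopologicalSpace.denseSeq (Set.range (trFac M hξ).ι) i : L2 H) := fun i =>
    (TopologicalSpace.denseSeq (Set.range (trFac M hξ).ι) i).2
  choose D hD using hd
  refine ⟨D, fun x ε hε => ?_⟩
  obtain ⟨i, hi⟩ := (TopologicalSpace.denseRange_denseSeq _).exists_dist_lt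
    (⟨_, x, rfl⟩ : Set.range (trFac M hξ).ι) hε
  refine ⟨i, ?_⟩
  rwa [map_sub, hD, ← dist_eq_norm, dist_comm]

end VP085.Bridge
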