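import Vale.Agent.P085.Bridge.Tower
import Vale.Agent.P085.Bridge.Setting
import Vale.Agent.P085.Bridge.Continuous
import Vale.Agent.P085.Bridge.Generate

/-!
P085, bridge: every II₁ factor on a separable space has a chain of matrix units starting with
eight by eight units.
-/

open scoped InnerProductSpace
open Filter Topology

namespace VP085.Bridge

open VP086 Vale.Agent.P104 Vale.Agent.P104.Continuous

section Std

variable {A : Type} [CStarAlgebra A] {H : Type} [NormedAddCommGroup H] [InnerProductSpace ℂ H]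
  (S : Std A H) {n : ℕ → ℕ} (e : ∀ K, Fin (n K) → Fin (n K) → A)

theorem avgTo_add (K : ℕ) (x y : A) : avgTo n e K (x + y) = avgTo n e K x + avgTo n e K y := by
  induction K with
  | zero => rfl
  | succ K ih => simp only [avgTo, ih, twirl, mul_add, add_mul, Finset.sum_add_distrib, smul_add]

theorem avgTo_smul (K : ℕ) (c : ℂ) (x : A) : avgTo n e K (c • x) = c • avgTo n e K x := by
  induction K with
  | zero => rfl
  | succ K ih =>
    simp only [avgTo, ih, twirl, mul_smul_comm, smul_mul_assoc, ← Finset.smul_sum, smul_comm c]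

theorem avgTo_sub (K : ℕ) (x y : A) : avgTo n e K (x - y) = avgTo n e K x - avgTo n e K y := by
  rw [sub_eq_add_neg, avgTo_add, ← neg_one_smul ℂ y, avgTo_smul, neg_one_smul, ← sub_eq_add_neg]

theorem norm_iota_le (z : A) : ‖S.ι z‖ ≤ ‖z‖ := by
  simpa [S.norm_one] using S.left_le z 1

theorem norm_tau_le (z : A) : ‖S.τ z‖ ≤ ‖S.ι z‖ :=
  (norm_inner_le_norm _ _).trans_eq (by rw [S.norm_one, one_mul])

theorem norm_iota_scalar (c : ℂ) : ‖S.ι (c • (1 : A))‖ = ‖c‖ := by
  rw [map_smul, norm_smul, S.norm_one, mul_one]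

theorem tau_sub' (x y : A) : S.τ (x - y) = S.τ x - S.τ y := by
  rw [Std.τ, map_sub, inner_sub_right]; rfl

theorem tau_scalar (c : ℂ) : S.τ (c • (1 : A)) = c := by
  rw [Std.τ, map_smul, inner_smul_right, inner_self_eq_norm_sq_to_K, S.norm_one]
  simp

variable {m : ℕ} {f : Fin m → Fin m → A} (hstar : ∀ i j, star (f i j) = f j i)
  (hmul : ∀ i j k l, f i j * f k l = if j = k then f i l else 0) (hsum : ∑ i, f i i = 1)

include hmul hsum in
theorem tau_twirl (hm : 0 < m) (x : A) : S.τ (twirl f x) = S.τ x := by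
  have e1 : ∀ i, ∑ j, S.τ (f i j * x * f j i) = S.τ x := fun i => by
    have : ∀ j, S.τ (f i j * x * f j i) = S.τ (f j j * x) := fun j => by
      rw [Std.τ, S.tau_comm, ← mul_assoc, hmul, if_pos rfl]; rfl
    rw [Finset.sum_congr rfl fun j _ => this j]
    simp only [Std.τ]
    rw [← inner_sum, ← map_sum, ← Finset.sum_mul, hsum, one_mul]
  have hm' : (m : ℂ) ≠ 0 := Nat.cast_ne_zero.2 hm.ne'
  rw [Std.τ, twirl, map_smul, inner_smul_right, map_sum, inner_sum]
  simp only [map_sum, inner_sum]
  change (m : ℂ)⁻¹ * ∑ i, ∑ j, S.τ (f i j * x * f j i) = _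
  simp [e1, hm']

include hstar hmul hsum in
theorem norm_twirl_le (hm : 0 < m) (x : A) : ‖S.ι (twirl f x)‖ ≤ ‖S.ι x‖ := by
  set T := twirl f x with hT
  have hc : ∀ k l, f k l * T = T * f k l := fun k l => by
    simp only [hT, twirl, mul_smul_comm, smul_mul_assoc, Finset.mul_sum, Finset.sum_mul]
    congr 1
    have eL : ∀ i j, f k l * (f i j * x * f j i) = if l = i then f k j * x * f j i else 0 :=
      fun i j => by rw [← mul_assoc, ← mul_assoc, hmul, ite_mul, ite_mul, zero_mul, zero_mul]
    have eR : ∀ i j, f i j * x * f j i * f k l = if i = k then f i j * x * f j l else 0 :=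
      fun i j => by rw [mul_assoc _ (f j i), hmul, mul_ite, mul_zero]
    simp only [eL, eR]
    rw [Finset.sum_comm]
    nth_rewrite 2 [Finset.sum_comm]
    simp
  have e1 : ∀ i j, ⟪S.ι (f i j * x * f j i), S.ι T⟫_ℂ =
      ⟪S.ι 1, S.ι (star x * T * f j j)⟫_ℂ := fun i j => by
    rw [S.inner_ι, star_mul, star_mul, hstar, hstar, mul_assoc, S.tau_comm, mul_assoc (star x),
      hc, ← mul_assoc, mul_assoc, hmul, if_pos rfl]
  have e2 : ⟪S.ι T, S.ι T⟫_ℂ = ⟪S.ι x, S.ι T⟫_ℂ := by
    conv_lhs => arg 2; rw [hT, twirl, map_smul]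
    rw [inner_smul_left, map_sum, sum_inner]
    have e3 : ∀ i, ∑ j, ⟪S.ι (f i j * x * f j i), S.ι T⟫_ℂ = ⟪S.ι x, S.ι T⟫_ℂ := fun i => by
      rw [Finset.sum_congr rfl fun j _ => e1 i j, ← inner_sum, ← map_sum, ← Finset.mul_sum, hsum,
        mul_one, S.inner_ι x T]
    simp only [map_sum, sum_inner, e3]
    simp [map_inv₀, hm.ne']
  have h := norm_inner_le_norm (𝕜 := ℂ) (S.ι x) (S.ι T)
  rw [← e2, inner_self_eq_norm_sq_to_K, norm_pow] at h
  simp only [RCLike.norm_ofReal, abs_norm] at h
  rcases eq_or_lt_of_le (norm_nonneg (S.ι T)) with h0 | h0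
  · rw [← h0]; exact norm_nonneg _
  · nlinarith

end Std

variable {H : Type} [NormedAddCommGroup H] [InnerProductSpace ℂ H] [CompleteSpace H]
  {M : VonNeumannAlgebra H} {ξ : ℕ → H}

/-- A central element is a scalar, real when it is self-adjoint. -/
theorem scalar_of_factor (hF : Lit.IsFactor H M) (h : Lit.IsFaithfulTrace H M ξ)
    (c : H →L[ℂ] H) (hc : InCentre M c) (hcs : IsSelfAdjoint c) : ∃ r : ℝ, c = (r : ℂ) • 1 := by
  obtain ⟨a, rfl⟩ := hF c hc.1 hc.2
  refine ⟨a.re, ?_⟩
  have : Nontrivial H := by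
    by_contra hn
    rw [not_nontrivial_iff_subsingleton] at hn
    have h0 : ∀ n, ‖ξ n‖ ^ 2 = 0 := fun n => by rw [Subsingleton.elim (ξ n) 0]; simp
    have := h.1.tsum_eq
    simp only [h0, tsum_zero] at this
    exact zero_ne_one this
  have e : (starRingEnd ℂ a - a) • (1 : H →L[ℂ] H) = 0 := by
    have := hcs.star_eq
    rw [star_smul, star_one, Complex.star_def] at this
    rw [sub_smul, this, sub_self]
  rw [smul_eq_zero, sub_eq_zero, or_iff_left one_ne_zero] at e
  rw [(Complex.conj_eq_iff_re.1 e)]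

theorem size_ge (K : ℕ) : 4 ≤ size K := by
  unfold size expo
  split_ifs <;> norm_num

theorem coe_avgTo {n : ℕ → ℕ} (e : ∀ K, Fin (n K) → Fin (n K) → M.toStarSubalgebra) (K : ℕ)
    (x : M.toStarSubalgebra) :
    ((avgTo n e K x : M.toStarSubalgebra) : H →L[ℂ] H) = avgTo n (fun K i j => (e K i j : H →L[ℂ] H)) K x := by
  induction K with
  | zero => rfl
  | succ K ih => simp only [avgTo, twirl, ← ih]; push_cast; rfl

/-- A II₁ factor on a separable space has a chain of matrix units starting with eight by eight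
units. -/
theorem exists_chain [TopologicalSpace.SeparableSpace H] (hF : Lit.IsFactor H M)
    (hinf : Lit.IsInfiniteDim H M) (hξ : Lit.IsFaithfulTrace H M ξ) :
    ∃ C : Chain (trFac M hξ), C.n 0 = 8 := by
  obtain ⟨D, hD⟩ := trFac_sepTwo M hξ
  set S := trFac M hξ with hS
  let part : ℕ → M.toStarSubalgebra := fun k =>
    if k % 2 = 0 then D (k / 2) + star (D (k / 2))
    else Complex.I • (D (k / 2) - star (D (k / 2)))
  have hpart : ∀ k, IsSelfAdjoint (part k : H →L[ℂ] H) := fun k => by
    simp only [part]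
    split_ifs
    · simp [IsSelfAdjoint, add_comm]
    · simp only [IsSelfAdjoint, SetLike.val_smul, AddSubgroupClass.coe_sub, StarMemClass.coe_star,
        star_smul, star_sub, star_star, Complex.star_def, Complex.conj_I, neg_smul, ← smul_neg,
        neg_sub]
  obtain ⟨Q⟩ := exists_seq (continuousPart_one ⟨hF, hinf, ξ, hξ⟩) (scalar_of_factor hF hξ)
    (fun k => (part k).2) hpart
  let e : ∀ K, Fin (size K) → Fin (size K) → M.toStarSubalgebra := fun K i j =>
    ⟨Q.unit K i j, Q.unit_mem K i j⟩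
  have hmul : ∀ K i j k l, e K i j * e K k l = if j = k then e K i l else 0 := fun K i j k l => by
    apply Subtype.ext
    have := Q.mul_unit K i j k l
    split_ifs with h <;> simpa [e, h] using this
  have hsum : ∀ K, ∑ i, e K i i = 1 := fun K => Subtype.ext (by simpa [e] using Q.sum_unit K)
  have hstar : ∀ K i j, star (e K i j) = e K j i := fun K i j => Subtype.ext (Q.star_unit K i j)
  have hpos : ∀ K, 0 < size K := fun K => lt_of_lt_of_le (by norm_num) (size_ge K)
  have htau : ∀ K x, S.τ (avgTo size e K x) = S.τ x := fun K x => by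
    induction K with
    | zero => rfl
    | succ K ih => rw [avgTo, tau_twirl S.toStd (hmul K) (hsum K) (hpos K), ih]
  have hcon : ∀ K x, ‖S.ι (avgTo size e K x)‖ ≤ ‖S.ι x‖ := fun K x => by
    induction K with
    | zero => exact le_rfl
    | succ K ih =>
      rw [avgTo]
      exact (norm_twirl_le S.toStd (hstar K) (hmul K) (hsum K) (hpos K) _).trans ih
  let good : M.toStarSubalgebra → Prop := fun x =>
    Tendsto (fun K => S.ι (avgTo size e K x)) atTop (𝓝 (S.ι (S.τ x • 1)))
  have g_add : ∀ x y, good x → good y → good (x + y) := fun x y hx hy => by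
    simpa [good, avgTo_add, Std.τ, inner_add_right, add_smul] using hx.add hy
  have g_smul : ∀ (c : ℂ) x, good x → good (c • x) := fun c x hx => by
    simpa [good, avgTo_smul, Std.τ, inner_smul_right, smul_smul] using hx.const_smul c
  have g_part : ∀ k, good (part k) := fun k => by
    refine tendsto_iff_norm_sub_tendsto_zero.2 (squeeze_zero (fun _ => norm_nonneg _) (fun K => ?_)
      (by simpa using (Q.err_tendsto k).const_mul 2))
    obtain ⟨c, hc⟩ := Q.avgTo_near k K
    set a := avgTo size e K (part k)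
    have hz : ‖S.ι (a - (c : ℂ) • 1)‖ ≤ (Q.s K).err k := by
      refine (norm_iota_le S.toStd _).trans (le_trans (le_of_eq ?_) hc)
      rw [← coe_avgTo e K (part k)]
      rfl
    have ht : ‖S.ι ((c : ℂ) • 1 - S.τ (part k) • 1)‖ ≤ (Q.s K).err k := by
      rw [← sub_smul, norm_iota_scalar S.toStd, norm_sub_rev]
      have := norm_tau_le S.toStd (a - (c : ℂ) • 1)
      rw [tau_sub', tau_scalar, htau] at this
      exact this.trans hz
    calc ‖S.ι a - S.ι (S.τ (part k) • 1)‖
        = ‖S.ι (a - (c : ℂ) • 1) + S.ι ((c : ℂ) • 1 - S.τ (part k) • 1)‖ := by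
          rw [← map_add, sub_add_sub_cancel, map_sub]
      _ ≤ (Q.s K).err k + (Q.s K).err k := (norm_add_le _ _).trans (add_le_add hz ht)
      _ = 2 * (Q.s K).err k := (two_mul _).symm
  have g_D : ∀ i, good (D i) := fun i => by
    have := g_add _ _ (g_smul (1 / 2) _ (g_part (2 * i)))
      (g_smul (-Complex.I / 2) _ (g_part (2 * i + 1)))
    convert this using 1
    simp only [part, Nat.mul_mod_right, if_true, if_neg (show ¬ (2 * i + 1) % 2 = 0 by omega),
      show 2 * i / 2 = i by omega, show (2 * i + 1) / 2 = i by omega, smul_smul]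
    rw [show -Complex.I / 2 * Complex.I = 1 / 2 by rw [div_mul_eq_mul_div, neg_mul, Complex.I_mul_I,
      neg_neg]]
    module
  have g_all : ∀ x, good x := fun x => by
    refine Metric.tendsto_atTop.2 fun ε hε => ?_
    obtain ⟨i, hi⟩ := hD x (ε / 3) (by positivity)
    obtain ⟨N, hN⟩ := Metric.tendsto_atTop.1 (g_D i) (ε / 3) (by positivity)
    refine ⟨N, fun K hK => ?_⟩
    have h2 := hN K hK
    rw [dist_eq_norm] at h2 ⊢
    have h1 : ‖S.ι (avgTo size e K x) - S.ι (avgTo size e K (D i))‖ < ε / 3 := by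
      rw [← map_sub, ← avgTo_sub]
      refine (hcon K _).trans_lt ?_
      rwa [map_sub, norm_sub_rev, ← map_sub]
    have h3 : ‖S.ι (S.τ (D i) • 1) - S.ι (S.τ x • 1)‖ < ε / 3 := by
      rw [← map_sub, ← sub_smul, norm_iota_scalar S.toStd, ← tau_sub']
      exact (norm_tau_le S.toStd _).trans_lt hi
    have := norm_sub_le_norm_sub_add_norm_sub (S.ι (avgTo size e K x))
      (S.ι (avgTo size e K (D i))) (S.ι (S.τ x • 1))
    have := norm_sub_le_norm_sub_add_norm_sub (S.ι (avgTo size e K (D i)))
      (S.ι (S.τ (D i) • 1)) (S.ι (S.τ x • 1))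
    linarith
  exact ⟨{
      n := size
      four_le := size_ge
      e := e
      star_e := hstar
      mul_e := hmul
      sum_e := hsum
      comm := fun K K' h i j k l => Subtype.ext (Q.comm_unit h i j k l)
      scal := g_all }, by simp [size, expo]⟩

/-- The chain specification of the bridge. -/
theorem chainSpec : ChainSpec := fun _ _ _ _ _ _ _ hF hinf hξ => exists_chain hF hinf hξ

end VP085.Bridge
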