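import Vale.Agent.P085.Bridge.Generate
import Vale.Agent.P085.Bridge.Chain

/-!
P085, bridge: from single generation in the abstract setting to type II₁ factors on separable
Hilbert spaces.
-/

namespace VP085.Bridge

/-- The bridge from the abstract setting to the literature statement. -/
theorem bridgeSpec : BridgeSpec := bridgeSpec_of chainSpec

end VP085.Bridge
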