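import Vale.Agent.P085.Bridge.Block
import Vale.Agent.P085.Defs

/-!
P085: a tower of commuting matrix units whose averages bring countably many given self-adjoint
elements to the scalars in norm.
-/

open Filter Topology

namespace VP085.Bridge

open Vale.Agent.P104 Vale.Agent.P104.Continuous

variable {H : Type} [NormedAddCommGroup H] [InnerProductSpace ℂ H] [CompleteSpace H]

/-- The exponent of the size of the `K`th system. -/
def expo (K : ℕ) : ℕ := if K = 0 then 2 else 1

/-- The size of the `K`th system. -/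
def size (K : ℕ) : ℕ := 2 ^ (expo K + 1)

/-- A state of the construction: a corner, the averaged elements there, and their distances to
the scalars. -/
structure St (H : Type) [NormedAddCommGroup H] [InnerProductSpace ℂ H] where
  p : H →L[ℂ] H
  X : ℕ → (H →L[ℂ] H)
  err : ℕ → ℝ

/-- The invariant of a state. -/
structure St.Ok (M : VonNeumannAlgebra H) (s : St H) : Prop where
  proj : IsStarProjection s.p
  memP : s.p ∈ M
  mem : ∀ m, s.X m ∈ M
  sa : ∀ m, IsSelfAdjoint (s.X m)
  left : ∀ m, s.p * s.X m = s.X m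
  near : ∀ m, ∃ c : ℝ, ‖s.X m - (c : ℂ) • s.p‖ ≤ s.err m

lemma St.Ok.err_nonneg {M : VonNeumannAlgebra H} {s : St H} (h : s.Ok M) (m : ℕ) : 0 ≤ s.err m := by
  obtain ⟨c, hc⟩ := h.near m
  exact (norm_nonneg _).trans hc

lemma exists_next {M : VonNeumannAlgebra H} (hc : ContinuousPart M 1)
    (hs : ∀ c, InCentre M c → IsSelfAdjoint c → ∃ r : ℝ, c = (r : ℂ) • 1)
    {s : St H} (h : s.Ok M) (i j : ℕ) :
    ∃ s' : St H, s'.Ok M ∧ ∃ R : Fin (2 ^ (j + 1)) → (H →L[ℂ] H),
      Block M s.p s'.p R ∧ (∀ m, s'.X m = down R (s.X m)) ∧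
      (∀ m, s'.err m ≤ s.err m) ∧ s'.err i ≤ 3 / 4 * s.err i := by
  obtain ⟨c, hci⟩ := h.near i
  have hsp : IsSelfAdjoint s.p := h.proj.isSelfAdjoint
  have hd : IsSelfAdjoint (s.X i - (c : ℂ) • s.p) := by
    rw [IsSelfAdjoint, star_sub, star_smul, hsp.star_eq, (h.sa i).star_eq, Complex.star_def,
      Complex.conj_ofReal]
  obtain ⟨p', R, hR, c', hc'⟩ := exists_block hc hs h.memP h.proj
    (sub_mem (h.mem i) (smul_mem_vn (c : ℂ) h.memP)) hd
    (by rw [mul_sub, mul_smul_comm, h.left, h.proj.isIdempotentElem.eq]) j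
  have hn : 0 < 2 ^ (j + 1) := by positivity
  refine ⟨⟨p', fun m => down R (s.X m), fun m => if m = i then 3 / 4 * s.err m else s.err m⟩,
    ⟨hR.proj, hR.memP, fun m => hR.down_mem (h.mem m), fun m => down_sa R (h.sa m),
      fun m => hR.left_down _, fun m => ?_⟩, R, hR, fun m => rfl, fun m => ?_, by simp⟩
  · dsimp only
    split_ifs with hm
    · subst hm
      refine ⟨c + c', le_trans (le_of_eq_of_le ?_ hc') ?_⟩
      · rw [down_sub, down_smul, hR.down_p hn, Complex.ofReal_add, add_smul, sub_sub]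
      · linarith
    · obtain ⟨d, hd⟩ := h.near m
      refine ⟨d, le_trans (le_of_eq ?_) ((hR.norm_down_le _).trans hd)⟩
      rw [down_sub, down_smul, hR.down_p hn]
  · dsimp only
    split_ifs
    · linarith [h.err_nonneg m]
    · exact le_rfl

/-- A compatible sequence of blocks. -/
structure Seq (M : VonNeumannAlgebra H) (y : ℕ → (H →L[ℂ] H)) where
  s : ℕ → St H
  ok : ∀ K, (s K).Ok M
  p_zero : (s 0).p = 1
  X_zero : ∀ m, (s 0).X m = y m
  R : ∀ K, Fin (size K) → (H →L[ℂ] H)
  block : ∀ K, Block M (s K).p (s (K + 1)).p (R K)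
  X_succ : ∀ K m, (s (K + 1)).X m = down (R K) ((s K).X m)
  err_succ : ∀ K m, (s (K + 1)).err m ≤ (s K).err m
  err_hit : ∀ K, (s (K + 1)).err (Nat.unpair K).1 ≤ 3 / 4 * (s K).err (Nat.unpair K).1

lemma exists_seq {M : VonNeumannAlgebra H} (hc : ContinuousPart M 1)
    (hs : ∀ c, InCentre M c → IsSelfAdjoint c → ∃ r : ℝ, c = (r : ℂ) • 1)
    {y : ℕ → (H →L[ℂ] H)} (hy : ∀ m, y m ∈ M) (hys : ∀ m, IsSelfAdjoint (y m)) :
    Nonempty (Seq M y) := by
  have h0 : (⟨1, y, fun m => ‖y m‖⟩ : St H).Ok M :=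
    ⟨.one _, one_mem M, hy, hys, fun m => one_mul _, fun m => ⟨0, by simp⟩⟩
  choose next hnext R hR hX herr hhit using
    fun (K : ℕ) (s : {s : St H // s.Ok M}) => exists_next hc hs s.2 (Nat.unpair K).1 (expo K)
  let S : ℕ → {s : St H // s.Ok M} := fun K => Nat.rec ⟨_, h0⟩ (fun K s => ⟨next K s, hnext K s⟩) K
  exact ⟨
    { s := fun K => (S K).1
      ok := fun K => (S K).2
      p_zero := rfl
      X_zero := fun m => rfl
      R := fun K => R K (S K)
      block := fun K => hR K (S K)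
      X_succ := fun K m => hX K (S K) m
      err_succ := fun K m => herr K (S K) m
      err_hit := fun K => hhit K (S K) }⟩

namespace Seq

variable {M : VonNeumannAlgebra H} {y : ℕ → (H →L[ℂ] H)} (Q : Seq M y)

/-- From the `K`th corner to the whole algebra. -/
noncomputable def up : ℕ → (H →L[ℂ] H) → (H →L[ℂ] H)
  | 0, z => z
  | K + 1, z => up K (comb (Q.R K) z)

lemma up_add (K : ℕ) (a b : H →L[ℂ] H) : Q.up K (a + b) = Q.up K a + Q.up K b := by
  induction K generalizing a b with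
  | zero => rfl
  | succ K ih => simp only [up, comb, mul_add, add_mul, Finset.sum_add_distrib, ih]

lemma up_smul (K : ℕ) (c : ℂ) (a : H →L[ℂ] H) : Q.up K (c • a) = c • Q.up K a := by
  induction K generalizing a with
  | zero => rfl
  | succ K ih => simp only [up, comb, mul_smul_comm, smul_mul_assoc, ← Finset.smul_sum, ih]

lemma up_zero' (K : ℕ) : Q.up K 0 = 0 := by
  simpa using Q.up_smul K 0 0

lemma up_sum (K : ℕ) {ι : Type} (t : Finset ι) (f : ι → (H →L[ℂ] H)) :
    Q.up K (∑ i ∈ t, f i) = ∑ i ∈ t, Q.up K (f i) := by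
  classical
  induction t using Finset.induction_on with
  | empty => simp [up_zero']
  | insert a t ha ih => rw [Finset.sum_insert ha, Finset.sum_insert ha, up_add, ih]

lemma up_star (K : ℕ) (a : H →L[ℂ] H) : Q.up K (star a) = star (Q.up K a) := by
  induction K generalizing a with
  | zero => rfl
  | succ K ih =>
    simp only [up, ← ih]
    congr 1
    simp only [comb, star_sum, star_mul, star_star, mul_assoc]

lemma up_mem {K : ℕ} {a : H →L[ℂ] H} (ha : a ∈ M) : Q.up K a ∈ M := by
  induction K generalizing a with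
  | zero => exact ha
  | succ K ih => exact ih ((Q.block K).comb_mem ha)

lemma up_p (K : ℕ) : Q.up K (Q.s K).p = 1 := by
  induction K with
  | zero => exact Q.p_zero
  | succ K ih => rw [up, (Q.block K).comb_one, ih]

lemma up_mul {K : ℕ} {a b : H →L[ℂ] H} (ha : a * (Q.s K).p = a) :
    Q.up K a * Q.up K b = Q.up K (a * b) := by
  induction K generalizing a b with
  | zero => rfl
  | succ K ih =>
    simp only [up]
    rw [ih ((Q.block K).comb_corner (Q.ok K).proj a).2, (Q.block K).comb_mul ha]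

lemma norm_up_le {K : ℕ} {a : H →L[ℂ] H} (ha : IsSelfAdjoint a) : ‖Q.up K a‖ ≤ ‖a‖ := by
  induction K generalizing a with
  | zero => exact le_rfl
  | succ K ih =>
    exact (ih (isSelfAdjoint_sum _ fun i _ => ha.conjugate' (Q.R K i))).trans
      ((Q.block K).norm_comb_le (Q.ok K).proj ha)

lemma up_lift {K K' : ℕ} (h : K ≤ K') {a : H →L[ℂ] H} (ha : InCorner (Q.s K').p a) :
    ∃ b, InCorner (Q.s K).p b ∧ Q.up K' a = Q.up K b := by
  induction h generalizing a with
  | refl => exact ⟨a, ha, rfl⟩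
  | step _ ih => exact ih ((Q.block _).comb_corner (Q.ok _).proj a)

/-- The `K`th system of matrix units. -/
noncomputable def unit (K : ℕ) (a b : Fin (size K)) : H →L[ℂ] H :=
  Q.up K (star (Q.R K a) * Q.R K b)

lemma unit_mem (K : ℕ) (a b : Fin (size K)) : Q.unit K a b ∈ M :=
  Q.up_mem (mul_mem (star_mem ((Q.block K).mem a)) ((Q.block K).mem b))

lemma star_unit (K : ℕ) (a b : Fin (size K)) : star (Q.unit K a b) = Q.unit K b a := by
  rw [unit, ← up_star, star_mul, star_star, unit]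

lemma mul_unit (K : ℕ) (a b c d : Fin (size K)) :
    Q.unit K a b * Q.unit K c d = if b = c then Q.unit K a d else 0 := by
  rw [unit, unit, Q.up_mul ((Q.block K).unit_corner (Q.ok K).proj a b).2, (Q.block K).unit_mul]
  split_ifs
  · rfl
  · exact Q.up_zero' K

lemma sum_unit (K : ℕ) : ∑ a, Q.unit K a a = 1 := by
  simp only [unit]
  rw [← up_sum, (Q.block K).sum, up_p]

lemma comm_of_lt {K K' : ℕ} (h : K < K') (a b : Fin (size K)) (c d : Fin (size K')) :
    Q.unit K a b * Q.unit K' c d = Q.unit K' c d * Q.unit K a b := by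
  obtain ⟨z, hz, e⟩ :=
    Q.up_lift (K := K + 1) h ((Q.block K').unit_corner (Q.ok K').proj c d)
  rw [unit, unit, e, up, Q.up_mul ((Q.block K).unit_corner (Q.ok K).proj a b).2,
    Q.up_mul ((Q.block K).comb_corner (Q.ok K).proj z).2, (Q.block K).comb_unit hz]

lemma comm_unit {K K' : ℕ} (h : K ≠ K') (a b : Fin (size K)) (c d : Fin (size K')) :
    Q.unit K a b * Q.unit K' c d = Q.unit K' c d * Q.unit K a b := by
  rcases lt_or_gt_of_ne h with h | h
  · exact Q.comm_of_lt h a b c d
  · exact (Q.comm_of_lt h c d a b).symm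

lemma avgTo_eq (m K : ℕ) :
    VP085.avgTo size Q.unit K (y m) = Q.up K ((Q.s K).X m) := by
  induction K with
  | zero => exact (Q.X_zero m).symm
  | succ K ih =>
    rw [VP085.avgTo, ih, Q.X_succ, up, ← (Q.block K).comb_twirl, VP085.twirl, up_smul, up_sum]
    refine congrArg _ (Finset.sum_congr rfl fun a _ => ?_)
    rw [up_sum]
    refine Finset.sum_congr rfl fun b _ => ?_
    have hX : (Q.s K).X m * (Q.s K).p = (Q.s K).X m := by
      simpa [(Q.ok K).proj.isSelfAdjoint.star_eq, ((Q.ok K).sa m).star_eq] using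
        congrArg star ((Q.ok K).left m)
    rw [unit, unit, Q.up_mul ((Q.block K).unit_corner (Q.ok K).proj a b).2,
      Q.up_mul (by rw [mul_assoc, hX])]

lemma avgTo_near (m K : ℕ) :
    ∃ c : ℝ, ‖VP085.avgTo size Q.unit K (y m) - (c : ℂ) • 1‖ ≤ (Q.s K).err m := by
  obtain ⟨c, hc⟩ := (Q.ok K).near m
  refine ⟨c, le_trans ?_ hc⟩
  have e : Q.up K ((Q.s K).X m - (c : ℂ) • (Q.s K).p) =
      VP085.avgTo size Q.unit K (y m) - (c : ℂ) • 1 := by
    rw [sub_eq_add_neg, ← neg_smul, up_add, up_smul, up_p, neg_smul, ← sub_eq_add_neg, avgTo_eq]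
  rw [← e]
  refine Q.norm_up_le ?_
  rw [IsSelfAdjoint, star_sub, star_smul, ((Q.ok K).sa m).star_eq,
    (Q.ok K).proj.isSelfAdjoint.star_eq, Complex.star_def, Complex.conj_ofReal]

lemma err_antitone (m : ℕ) : Antitone fun K => (Q.s K).err m :=
  antitone_nat_of_succ_le fun K => Q.err_succ K m

lemma err_pair (m j : ℕ) :
    (Q.s (Nat.pair m j + 1)).err m ≤ (3 / 4 : ℝ) ^ (j + 1) * (Q.s 0).err m := by
  induction j with
  | zero =>
    refine le_trans (by simpa using Q.err_hit (Nat.pair m 0)) ?_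
    simpa using mul_le_mul_of_nonneg_left (Q.err_antitone m (Nat.zero_le (Nat.pair m 0)))
      (by norm_num : (0 : ℝ) ≤ 3 / 4)
  | succ j ih =>
    refine le_trans (by simpa using Q.err_hit (Nat.pair m (j + 1))) ?_
    rw [pow_succ', mul_assoc]
    refine mul_le_mul_of_nonneg_left ((Q.err_antitone m ?_).trans ih) (by norm_num)
    exact Nat.pair_lt_pair_right m j.lt_succ_self

lemma err_tendsto (m : ℕ) : Tendsto (fun K => (Q.s K).err m) atTop (𝓝 0) := by
  refine Metric.tendsto_atTop.2 fun ε hε => ?_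
  have h0 := (Q.ok 0).err_nonneg m
  obtain ⟨j, hj⟩ := exists_pow_lt_of_lt_one (show 0 < ε / ((Q.s 0).err m + 1) by positivity)
    (show (3 / 4 : ℝ) < 1 by norm_num)
  refine ⟨Nat.pair m j + 1, fun K hK => ?_⟩
  rw [Real.dist_eq, sub_zero, abs_of_nonneg ((Q.ok K).err_nonneg m)]
  refine ((Q.err_antitone m hK).trans (Q.err_pair m j)).trans_lt ?_
  rw [lt_div_iff₀ (by positivity)] at hj
  refine lt_of_le_of_lt ?_ hj
  have hp : (3 / 4 : ℝ) ^ (j + 1) ≤ (3 / 4) ^ j :=
    pow_le_pow_of_le_one (by norm_num) (by norm_num) j.le_succ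
  exact mul_le_mul hp (by linarith) h0 (by positivity)

end Seq

end VP085.Bridge
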